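import Mathlib

/-!
Abstract covering combinatorics: if a symmetric relation `S` (short pairs) on a finite set `X`
with at most `k + 2` points is such that no `k`-subset of `X` has all of its pairs, or all but
one of its pairs, outside `S`, then `X` is covered by `k - 1` subsets that are `S`-cliques.
-/

namespace Vale.Agent.Lib.P052.helper23

open Finset

variable {α : Type*} [DecidableEq α]

/-- `Sav X S s`: the set `X` is covered by subsets which are `S`-cliques, with at most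
`X.card - s` of them. -/
def Sav (X : Finset α) (S : α → α → Prop) (s : ℕ) : Prop :=
  ∃ P : Finset (Finset α), (∀ A ∈ P, A ⊆ X) ∧ (∀ x ∈ X, ∃ A ∈ P, x ∈ A) ∧
    (∀ A ∈ P, ∀ x ∈ A, ∀ y ∈ A, x ≠ y → S x y) ∧ P.card + s ≤ X.card

/-- no `k`-subset of `X` has all pairs long, or all pairs but a given one long -/
def NK (X : Finset α) (S : α → α → Prop) (k : ℕ) : Prop :=
  ∀ T : Finset α, T ⊆ X → T.card = k → ∀ q ∈ T, ∀ q' ∈ T, q ≠ q' →
    ∃ x ∈ T, ∃ y ∈ T, x ≠ y ∧ S x y ∧ ¬ ((x = q ∧ y = q') ∨ (x = q' ∧ y = q))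

lemma sav_zero (X : Finset α) (S : α → α → Prop) : Sav X S 0 := by
  refine ⟨X.image (fun x => ({x} : Finset α)), ?_, ?_, ?_, ?_⟩
  · intro A hA
    rw [Finset.mem_image] at hA
    obtain ⟨x, hx, rfl⟩ := hA
    exact Finset.singleton_subset_iff.mpr hx
  · intro x hx
    exact ⟨{x}, Finset.mem_image_of_mem _ hx, Finset.mem_singleton_self x⟩
  · intro A hA x hx y hy hxy
    rw [Finset.mem_image] at hA
    obtain ⟨z, hz, rfl⟩ := hA
    rw [Finset.mem_singleton] at hx hy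
    exact absurd (hx.trans hy.symm) hxy
  · have := Finset.card_image_le (s := X) (f := fun x => ({x} : Finset α))
    omega

lemma sav_insert (X A : Finset α) (S : α → α → Prop) (s j : ℕ) (hA : A ⊆ X)
    (hcl : ∀ x ∈ A, ∀ y ∈ A, x ≠ y → S x y) (hcard : A.card = j + 1)
    (h : Sav (X \ A) S s) : Sav X S (s + j) := by
  obtain ⟨P, hP1, hP2, hP3, hP4⟩ := h
  refine ⟨insert A P, ?_, ?_, ?_, ?_⟩
  · intro B hB
    rw [Finset.mem_insert] at hB
    rcases hB with rfl | hB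
    · exact hA
    · exact (hP1 B hB).trans Finset.sdiff_subset
  · intro x hx
    by_cases hxA : x ∈ A
    · exact ⟨A, Finset.mem_insert_self _ _, hxA⟩
    · obtain ⟨B, hB, hxB⟩ := hP2 x (Finset.mem_sdiff.mpr ⟨hx, hxA⟩)
      exact ⟨B, Finset.mem_insert_of_mem hB, hxB⟩
  · intro B hB
    rw [Finset.mem_insert] at hB
    rcases hB with rfl | hB
    · exact hcl
    · exact hP3 B hB
  · have h1 : (insert A P).card ≤ P.card + 1 := Finset.card_insert_le _ _
    have h2 : (X \ A).card = X.card - A.card := Finset.card_sdiff_of_subset hA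
    have h3 : A.card ≤ X.card := Finset.card_le_card hA
    omega

lemma sav_pair (X : Finset α) (S : α → α → Prop) (hsym : ∀ x y, S x y → S y x) (s : ℕ)
    (x y : α) (hx : x ∈ X) (hy : y ∈ X) (hxy : x ≠ y) (hS : S x y)
    (h : Sav (X \ {x, y}) S s) : Sav X S (s + 1) := by
  refine sav_insert X {x, y} S s 1 ?_ ?_ (Finset.card_pair hxy) h
  · intro z hz
    rw [Finset.mem_insert, Finset.mem_singleton] at hz
    rcases hz with rfl | rfl
    · exact hx
    · exact hy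
  · intro u hu v hv huv
    rw [Finset.mem_insert, Finset.mem_singleton] at hu hv
    rcases hu with rfl | rfl <;> rcases hv with rfl | rfl
    · exact absurd rfl huv
    · exact hS
    · exact hsym _ _ hS
    · exact absurd rfl huv

lemma sav_tri (X : Finset α) (S : α → α → Prop) (hsym : ∀ x y, S x y → S y x) (s : ℕ)
    (x y z : α) (hx : x ∈ X) (hy : y ∈ X) (hz : z ∈ X) (hxy : x ≠ y) (hxz : x ≠ z) (hyz : y ≠ z)
    (hSxy : S x y) (hSxz : S x z) (hSyz : S y z)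
    (h : Sav (X \ {x, y, z}) S s) : Sav X S (s + 2) := by
  refine sav_insert X {x, y, z} S s 2 ?_ ?_
    (Finset.card_eq_three.mpr ⟨x, y, z, hxy, hxz, hyz, rfl⟩) h
  · intro w hw
    rw [Finset.mem_insert, Finset.mem_insert, Finset.mem_singleton] at hw
    rcases hw with rfl | rfl | rfl
    · exact hx
    · exact hy
    · exact hz
  · intro u hu v hv huv
    rw [Finset.mem_insert, Finset.mem_insert, Finset.mem_singleton] at hu hv
    rcases hu with rfl | rfl | rfl <;> rcases hv with rfl | rfl | rfl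
    · exact absurd rfl huv
    · exact hSxy
    · exact hSxz
    · exact hsym _ _ hSxy
    · exact absurd rfl huv
    · exact hSyz
    · exact hsym _ _ hSxz
    · exact hsym _ _ hSyz
    · exact absurd rfl huv

lemma nk_mono {X Y : Finset α} {S : α → α → Prop} {k : ℕ} (h : NK X S k) (hYX : Y ⊆ X) :
    NK Y S k :=
  fun T hT => h T (hT.trans hYX)

lemma exists_short (X : Finset α) (S : α → α → Prop) (k : ℕ) (h : NK X S k) (hk : 2 ≤ k)
    (hX : k ≤ X.card) : ∃ a ∈ X, ∃ b ∈ X, a ≠ b ∧ S a b := by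
  obtain ⟨T, hTX, hT⟩ := Finset.exists_subset_card_eq hX
  obtain ⟨q, hq, q', hq', hqq⟩ := Finset.one_lt_card.mp (by omega : 1 < T.card)
  obtain ⟨x, hx, y, hy, hxy, hS, -⟩ := h T hTX hT q hq q' hq' hqq
  exact ⟨x, hTX hx, y, hTX hy, hxy, hS⟩

lemma two_short_aux (Y : Finset α) (S : α → α → Prop) (hsym : ∀ x y, S x y → S y x) (k : ℕ)
    (hNY : NK Y S k) (hY : Y.card = k + 1) (a b e' : α) (ha : a ∈ Y) (hb : b ∈ Y)
    (he' : e' ∈ Y) (hab : a ≠ b) (hea : e' ≠ a) (heb : e' ≠ b) (hSab : S a b) (hSbe : S b e') :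
    ∃ a ∈ Y, ∃ b ∈ Y, ∃ c ∈ Y, ∃ e ∈ Y, a ≠ b ∧ a ≠ c ∧ a ≠ e ∧ b ≠ c ∧ b ≠ e ∧ c ≠ e ∧
      S a b ∧ S c e := by
  have hT2 : (Y.erase b).card = k := by
    rw [Finset.card_erase_of_mem hb, hY]; rfl
  have haT : a ∈ Y.erase b := Finset.mem_erase.mpr ⟨hab, ha⟩
  have heT : e' ∈ Y.erase b := Finset.mem_erase.mpr ⟨heb, he'⟩
  obtain ⟨x, hx, y, hy, hxy, hSxy, hne⟩ :=
    hNY (Y.erase b) (Finset.erase_subset _ _) hT2 a haT e' heT (Ne.symm hea)
  rw [Finset.mem_erase] at hx hy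
  by_cases hxa : x = a
  · have hye : y ≠ e' := fun h => hne (Or.inl ⟨hxa, h⟩)
    exact ⟨a, ha, y, hy.2, b, hb, e', he', hxa ▸ hxy, hab, Ne.symm hea, hy.1, hye,
      Ne.symm heb, hxa ▸ hSxy, hSbe⟩
  · by_cases hya : y = a
    · have hxe : x ≠ e' := fun h => hne (Or.inr ⟨h, hya⟩)
      exact ⟨a, ha, x, hx.2, b, hb, e', he', Ne.symm hxa, hab, Ne.symm hea, hx.1, hxe,
        Ne.symm heb, hsym _ _ (hya ▸ hSxy), hSbe⟩
    · exact ⟨a, ha, b, hb, x, hx.2, y, hy.2, hab, Ne.symm hxa, Ne.symm hya, Ne.symm hx.1,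
        Ne.symm hy.1, hxy, hSab, hSxy⟩

lemma exists_two_short (X : Finset α) (S : α → α → Prop) (hsym : ∀ x y, S x y → S y x) (k : ℕ)
    (h : NK X S k) (hk : 2 ≤ k) (hX : k + 1 ≤ X.card) :
    ∃ a ∈ X, ∃ b ∈ X, ∃ c ∈ X, ∃ e ∈ X, a ≠ b ∧ a ≠ c ∧ a ≠ e ∧ b ≠ c ∧ b ≠ e ∧ c ≠ e ∧
      S a b ∧ S c e := by
  obtain ⟨Y, hYX, hY⟩ := Finset.exists_subset_card_eq hX
  have hNY : NK Y S k := nk_mono h hYX
  have lift : (∃ a ∈ Y, ∃ b ∈ Y, ∃ c ∈ Y, ∃ e ∈ Y, a ≠ b ∧ a ≠ c ∧ a ≠ e ∧ b ≠ c ∧ b ≠ e ∧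
      c ≠ e ∧ S a b ∧ S c e) → ∃ a ∈ X, ∃ b ∈ X, ∃ c ∈ X, ∃ e ∈ X, a ≠ b ∧ a ≠ c ∧ a ≠ e ∧
      b ≠ c ∧ b ≠ e ∧ c ≠ e ∧ S a b ∧ S c e := by
    rintro ⟨a, ha, b, hb, c, hc, e, he, hrest⟩
    exact ⟨a, hYX ha, b, hYX hb, c, hYX hc, e, hYX he, hrest⟩
  apply lift
  obtain ⟨a, ha, b, hb, hab, hSab⟩ := exists_short Y S k hNY hk (by omega)
  have hT1 : (Y.erase a).card = k := by
    rw [Finset.card_erase_of_mem ha, hY]; rfl
  obtain ⟨q, hq, q', hq', hqq⟩ := Finset.one_lt_card.mp (by omega : 1 < (Y.erase a).card)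
  obtain ⟨c, hc, e, he, hce, hSce, -⟩ :=
    hNY (Y.erase a) (Finset.erase_subset _ _) hT1 q hq q' hq' hqq
  rw [Finset.mem_erase] at hc he
  by_cases hcb : c = b
  · exact two_short_aux Y S hsym k hNY hY a b e ha hb he.2 hab he.1 (hcb ▸ (Ne.symm hce)) hSab
      (hcb ▸ hSce)
  · by_cases heb : e = b
    · exact two_short_aux Y S hsym k hNY hY a b c ha hb hc.2 hab hc.1 hcb hSab
        (hsym _ _ (heb ▸ hSce))
    · exact ⟨a, ha, b, hb, c, hc.2, e, he.2, hab, Ne.symm hc.1, Ne.symm he.1, Ne.symm hcb,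
        Ne.symm heb, hce, hSab, hSce⟩

lemma sav_three_pairs (X : Finset α) (S : α → α → Prop) (hsym : ∀ x y, S x y → S y x)
    (x1 x2 x3 x4 x5 x6 : α) (h1 : x1 ∈ X) (h2 : x2 ∈ X) (h3 : x3 ∈ X) (h4 : x4 ∈ X)
    (h5 : x5 ∈ X) (h6 : x6 ∈ X) (hd : [x1, x2, x3, x4, x5, x6].Nodup)
    (hS12 : S x1 x2) (hS34 : S x3 x4) (hS56 : S x5 x6) : Sav X S 3 := by
  simp only [List.nodup_cons, List.mem_cons, List.not_mem_nil, or_false, not_or,
    List.nodup_nil, and_true, not_false_eq_true] at hd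
  obtain ⟨⟨h12, h13, h14, h15, h16⟩, ⟨h23, h24, h25, h26⟩, ⟨h34, h35, h36⟩, ⟨h45, h46⟩,
    h56⟩ := hd
  have m3 : x3 ∈ X \ {x1, x2} := by
    simp only [Finset.mem_sdiff, Finset.mem_insert, Finset.mem_singleton]
    exact ⟨h3, fun h => h.elim (fun h => h13 h.symm) (fun h => h23 h.symm)⟩
  have m4 : x4 ∈ X \ {x1, x2} := by
    simp only [Finset.mem_sdiff, Finset.mem_insert, Finset.mem_singleton]
    exact ⟨h4, fun h => h.elim (fun h => h14 h.symm) (fun h => h24 h.symm)⟩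
  have m5 : x5 ∈ (X \ {x1, x2}) \ {x3, x4} := by
    simp only [Finset.mem_sdiff, Finset.mem_insert, Finset.mem_singleton]
    exact ⟨⟨h5, fun h => h.elim (fun h => h15 h.symm) (fun h => h25 h.symm)⟩,
      fun h => h.elim (fun h => h35 h.symm) (fun h => h45 h.symm)⟩
  have m6 : x6 ∈ (X \ {x1, x2}) \ {x3, x4} := by
    simp only [Finset.mem_sdiff, Finset.mem_insert, Finset.mem_singleton]
    exact ⟨⟨h6, fun h => h.elim (fun h => h16 h.symm) (fun h => h26 h.symm)⟩,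
      fun h => h.elim (fun h => h36 h.symm) (fun h => h46 h.symm)⟩
  have s1 : Sav ((X \ {x1, x2}) \ {x3, x4}) S (0 + 1) :=
    sav_pair _ S hsym 0 x5 x6 m5 m6 h56 hS56 (sav_zero _ S)
  have s2 : Sav (X \ {x1, x2}) S (0 + 1 + 1) :=
    sav_pair _ S hsym (0 + 1) x3 x4 m3 m4 h34 hS34 s1
  exact sav_pair X S hsym (0 + 1 + 1) x1 x2 h1 h2 h12 hS12 s2

lemma sav_tri_pair (X : Finset α) (S : α → α → Prop) (hsym : ∀ x y, S x y → S y x)
    (x1 x2 x3 x4 x5 : α) (h1 : x1 ∈ X) (h2 : x2 ∈ X) (h3 : x3 ∈ X) (h4 : x4 ∈ X)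
    (h5 : x5 ∈ X) (hd : [x1, x2, x3, x4, x5].Nodup)
    (hS12 : S x1 x2) (hS13 : S x1 x3) (hS23 : S x2 x3) (hS45 : S x4 x5) : Sav X S 3 := by
  simp only [List.nodup_cons, List.mem_cons, List.not_mem_nil, or_false, not_or,
    List.nodup_nil, and_true, not_false_eq_true] at hd
  obtain ⟨⟨h12, h13, h14, h15⟩, ⟨h23, h24, h25⟩, ⟨h34, h35⟩, h45⟩ := hd
  have m4 : x4 ∈ X \ {x1, x2, x3} := by
    simp only [Finset.mem_sdiff, Finset.mem_insert, Finset.mem_singleton]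
    exact ⟨h4, fun h => h.elim (fun h => h14 h.symm)
      (fun h => h.elim (fun h => h24 h.symm) (fun h => h34 h.symm))⟩
  have m5 : x5 ∈ X \ {x1, x2, x3} := by
    simp only [Finset.mem_sdiff, Finset.mem_insert, Finset.mem_singleton]
    exact ⟨h5, fun h => h.elim (fun h => h15 h.symm)
      (fun h => h.elim (fun h => h25 h.symm) (fun h => h35 h.symm))⟩
  have s1 : Sav (X \ {x1, x2, x3}) S (0 + 1) :=
    sav_pair _ S hsym 0 x4 x5 m4 m5 h45 hS45 (sav_zero _ S)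
  exact sav_tri X S hsym (0 + 1) x1 x2 x3 h1 h2 h3 h12 h13 h23 hS12 hS13 hS23 s1

/-- two disjoint short pairs `(a,b)`, `(c,e)` and two points `ra`, `rb` outside, short to
`a` and `b` respectively: three savings. -/
lemma sav_D (X : Finset α) (S : α → α → Prop) (hsym : ∀ x y, S x y → S y x)
    (a b c e ra rb : α) (ha : a ∈ X) (hb : b ∈ X) (hc : c ∈ X) (he : e ∈ X)
    (hab : a ≠ b) (hac : a ≠ c) (hae : a ≠ e) (hbc : b ≠ c) (hbe : b ≠ e) (hce : c ≠ e)
    (hra : ra ∈ X ∧ ra ≠ a ∧ ra ≠ b ∧ ra ≠ c ∧ ra ≠ e)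
    (hrb : rb ∈ X ∧ rb ≠ a ∧ rb ≠ b ∧ rb ≠ c ∧ rb ≠ e)
    (hSab : S a b) (hSce : S c e) (hSa : S a ra) (hSb : S b rb) : Sav X S 3 := by
  obtain ⟨hraX, hra1, hra2, hra3, hra4⟩ := hra
  obtain ⟨hrbX, hrb1, hrb2, hrb3, hrb4⟩ := hrb
  by_cases hrr : ra = rb
  · refine sav_tri_pair X S hsym a b ra c e ha hb hraX hc he ?_ hSab hSa (hrr ▸ hSb) hSce
    simp only [List.nodup_cons, List.mem_cons, List.not_mem_nil, or_false, not_or,
      List.nodup_nil, and_true, not_false_eq_true]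
    exact ⟨⟨hab, Ne.symm hra1, hac, hae⟩, ⟨Ne.symm hra2, hbc, hbe⟩, ⟨hra3, hra4⟩, hce⟩
  · refine sav_three_pairs X S hsym a ra b rb c e ha hraX hb hrbX hc he ?_ hSa hSb hSce
    simp only [List.nodup_cons, List.mem_cons, List.not_mem_nil, or_false, not_or,
      List.nodup_nil, and_true, not_false_eq_true]
    exact ⟨⟨Ne.symm hra1, hab, Ne.symm hrb1, hac, hae⟩, ⟨hra2, hrr, hra3, hra4⟩,
      ⟨Ne.symm hrb2, hbc, hbe⟩, ⟨hrb3, hrb4⟩, hce⟩

lemma sav_three (X : Finset α) (S : α → α → Prop) (hsym : ∀ x y, S x y → S y x) (k : ℕ)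
    (h : NK X S k) (hk : 2 ≤ k) (hX : X.card = k + 2) : Sav X S 3 := by
  obtain ⟨a, ha, b, hb, c, hc, e, he, hab, hac, hae, hbc, hbe, hce, hSab, hSce⟩ :=
    exists_two_short X S hsym k h hk (by omega)
  obtain ⟨R, hR⟩ : ∃ R : Finset α, R = X \ {a, b, c, e} := ⟨_, rfl⟩
  have hmemR : ∀ z, z ∈ R ↔ z ∈ X ∧ z ≠ a ∧ z ≠ b ∧ z ≠ c ∧ z ≠ e := by
    intro z
    rw [hR, Finset.mem_sdiff]
    simp only [Finset.mem_insert, Finset.mem_singleton]
    tauto
  have hsub : ({a, b, c, e} : Finset α) ⊆ X := by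
    intro z hz
    simp only [Finset.mem_insert, Finset.mem_singleton] at hz
    rcases hz with rfl | rfl | rfl | rfl <;> assumption
  have h4 : ({a, b, c, e} : Finset α).card = 4 := by
    rw [Finset.card_insert_of_notMem, Finset.card_insert_of_notMem, Finset.card_pair hce]
    · simp only [Finset.mem_insert, Finset.mem_singleton, not_or]
      exact ⟨hbc, hbe⟩
    · simp only [Finset.mem_insert, Finset.mem_singleton, not_or]
      exact ⟨hab, hac, hae⟩
  have hRcard : R.card = k - 2 := by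
    rw [hR, Finset.card_sdiff_of_subset hsub, hX, h4]
    omega
  by_cases hRR : ∃ r ∈ R, ∃ r' ∈ R, r ≠ r' ∧ S r r'
  · obtain ⟨r, hr, r', hr', hrr, hSrr⟩ := hRR
    obtain ⟨hrX, hr1, hr2, hr3, hr4⟩ := (hmemR r).mp hr
    obtain ⟨hrX', hr1', hr2', hr3', hr4'⟩ := (hmemR r').mp hr'
    refine sav_three_pairs X S hsym a b c e r r' ha hb hc he hrX hrX' ?_ hSab hSce hSrr
    simp only [List.nodup_cons, List.mem_cons, List.not_mem_nil, or_false, not_or,
      List.nodup_nil, and_true, not_false_eq_true]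
    exact ⟨⟨hab, hac, hae, Ne.symm hr1, Ne.symm hr1'⟩, ⟨hbc, hbe, Ne.symm hr2, Ne.symm hr2'⟩,
      ⟨hce, Ne.symm hr3, Ne.symm hr3'⟩, ⟨Ne.symm hr4, Ne.symm hr4'⟩, hrr⟩
  · have claim : ∀ b' e', (b' = a ∨ b' = b) → (e' = c ∨ e' = e) →
        ∃ r ∈ R, S b' r ∨ S e' r := by
      intro b' e' hb' he'
      have hb'X : b' ∈ X := by rcases hb' with rfl | rfl <;> assumption
      have he'X : e' ∈ X := by rcases he' with rfl | rfl <;> assumption
      have hb'R : b' ∉ R := by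
        intro hmem
        obtain ⟨-, g1, g2, -, -⟩ := (hmemR b').mp hmem
        rcases hb' with h' | h'
        · exact g1 h'
        · exact g2 h'
      have he'R : e' ∉ R := by
        intro hmem
        obtain ⟨-, -, -, g3, g4⟩ := (hmemR e').mp hmem
        rcases he' with h' | h'
        · exact g3 h'
        · exact g4 h'
      have hbe' : b' ≠ e' := by
        rcases hb' with rfl | rfl <;> rcases he' with rfl | rfl <;> assumption
      have hb'ins : b' ∉ insert e' R := by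
        simp only [Finset.mem_insert, not_or]
        exact ⟨hbe', hb'R⟩
      have hT : (insert b' (insert e' R)).card = k := by
        rw [Finset.card_insert_of_notMem hb'ins, Finset.card_insert_of_notMem he'R, hRcard]
        omega
      have hTX : insert b' (insert e' R) ⊆ X := by
        intro z hz
        rw [Finset.mem_insert, Finset.mem_insert] at hz
        rcases hz with rfl | rfl | hz
        · exact hb'X
        · exact he'X
        · exact ((hmemR z).mp hz).1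
      obtain ⟨x, hx, y, hy, hxy, hSxy, hne⟩ :=
        h _ hTX hT b' (Finset.mem_insert_self _ _) e'
          (Finset.mem_insert_of_mem (Finset.mem_insert_self _ _)) hbe'
      rw [Finset.mem_insert, Finset.mem_insert] at hx hy
      rcases hx with hx | hx | hx
      · rcases hy with hy | hy | hy
        · exact absurd (hx.trans hy.symm) hxy
        · exact absurd (Or.inl ⟨hx, hy⟩) hne
        · exact ⟨y, hy, Or.inl (hx ▸ hSxy)⟩
      · rcases hy with hy | hy | hy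
        · exact absurd (Or.inr ⟨hx, hy⟩) hne
        · exact absurd (hx.trans hy.symm) hxy
        · exact ⟨y, hy, Or.inr (hx ▸ hSxy)⟩
      · rcases hy with hy | hy | hy
        · exact ⟨x, hx, Or.inl (hsym _ _ (hy ▸ hSxy))⟩
        · exact ⟨x, hx, Or.inr (hsym _ _ (hy ▸ hSxy))⟩
        · exact absurd ⟨x, hx, y, hy, hxy, hSxy⟩ hRR
    have hN : ((∃ r ∈ R, S a r) ∧ (∃ r ∈ R, S b r)) ∨
        ((∃ r ∈ R, S c r) ∧ (∃ r ∈ R, S e r)) := by
      by_cases h1 : ∃ r ∈ R, S a r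
      · by_cases h2 : ∃ r ∈ R, S b r
        · exact Or.inl ⟨h1, h2⟩
        · right
          constructor
          · obtain ⟨r, hr, h' | h'⟩ := claim b c (Or.inr rfl) (Or.inl rfl)
            · exact absurd ⟨r, hr, h'⟩ h2
            · exact ⟨r, hr, h'⟩
          · obtain ⟨r, hr, h' | h'⟩ := claim b e (Or.inr rfl) (Or.inr rfl)
            · exact absurd ⟨r, hr, h'⟩ h2
            · exact ⟨r, hr, h'⟩
      · right
        constructor
        · obtain ⟨r, hr, h' | h'⟩ := claim a c (Or.inl rfl) (Or.inl rfl)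
          · exact absurd ⟨r, hr, h'⟩ h1
          · exact ⟨r, hr, h'⟩
        · obtain ⟨r, hr, h' | h'⟩ := claim a e (Or.inl rfl) (Or.inr rfl)
          · exact absurd ⟨r, hr, h'⟩ h1
          · exact ⟨r, hr, h'⟩
    rcases hN with ⟨⟨ra, hra, hSa⟩, ⟨rb, hrb, hSb⟩⟩ | ⟨⟨rc, hrc, hSc⟩, ⟨re, hre, hSe⟩⟩
    · exact sav_D X S hsym a b c e ra rb ha hb hc he hab hac hae hbc hbe hce
        ((hmemR ra).mp hra) ((hmemR rb).mp hrb) hSab hSce hSa hSb
    · obtain ⟨g0, g1, g2, g3, g4⟩ := (hmemR rc).mp hrc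
      obtain ⟨g0', g1', g2', g3', g4'⟩ := (hmemR re).mp hre
      exact sav_D X S hsym c e a b rc re hc he ha hb hce (Ne.symm hac) (Ne.symm hbc)
        (Ne.symm hae) (Ne.symm hbe) hab ⟨g0, g3, g4, g1, g2⟩ ⟨g0', g3', g4', g1', g2'⟩
        hSce hSab hSc hSe

/-- Main covering statement. -/
theorem cover_main (X : Finset α) (S : α → α → Prop) (hsym : ∀ x y, S x y → S y x) (k : ℕ)
    (h : NK X S k) (hk : 2 ≤ k) (hX : X.card ≤ k + 2) :
    ∃ P : Finset (Finset α), (∀ A ∈ P, A ⊆ X) ∧ (∀ x ∈ X, ∃ A ∈ P, x ∈ A) ∧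
      (∀ A ∈ P, ∀ x ∈ A, ∀ y ∈ A, x ≠ y → S x y) ∧ P.card ≤ k - 1 := by
  by_cases h1 : X.card ≤ k - 1
  · obtain ⟨P, hP1, hP2, hP3, hP4⟩ := sav_zero X S
    exact ⟨P, hP1, hP2, hP3, by omega⟩
  · by_cases h2 : X.card = k
    · obtain ⟨a, ha, b, hb, hab, hSab⟩ := exists_short X S k h hk (by omega)
      obtain ⟨P, hP1, hP2, hP3, hP4⟩ :=
        sav_pair X S hsym 0 a b ha hb hab hSab (sav_zero _ S)
      exact ⟨P, hP1, hP2, hP3, by omega⟩
    · by_cases h3 : X.card = k + 1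
      · obtain ⟨a, ha, b, hb, c, hc, e, he, hab, hac, hae, hbc, hbe, hce, hSab, hSce⟩ :=
          exists_two_short X S hsym k h hk (by omega)
        have mc : c ∈ X \ {a, b} := by
          simp only [Finset.mem_sdiff, Finset.mem_insert, Finset.mem_singleton]
          exact ⟨hc, fun h => h.elim (fun h => hac h.symm) (fun h => hbc h.symm)⟩
        have me : e ∈ X \ {a, b} := by
          simp only [Finset.mem_sdiff, Finset.mem_insert, Finset.mem_singleton]
          exact ⟨he, fun h => h.elim (fun h => hae h.symm) (fun h => hbe h.symm)⟩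
        obtain ⟨P, hP1, hP2, hP3, hP4⟩ :=
          sav_pair X S hsym (0 + 1) a b ha hb hab hSab
            (sav_pair _ S hsym 0 c e mc me hce hSce (sav_zero _ S))
        exact ⟨P, hP1, hP2, hP3, by omega⟩
      · obtain ⟨P, hP1, hP2, hP3, hP4⟩ := sav_three X S hsym k h hk (by omega)
        exact ⟨P, hP1, hP2, hP3, by omega⟩

end Vale.Agent.Lib.P052.helper23
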