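import Vale.Agent.Lib.P052.helper23.TwoSimplex
import Vale.Agent.Lib.P052.helper23.Comb

/-!
Borsuk's conjecture for sets of at most `d + 4` points of `ℝ^d`.
-/

namespace Vale.Agent.Lib.P052.helper23

open Finset

theorem borsuk_few_points (d : ℕ) (X : Finset (EuclideanSpace ℝ (Fin d)))
    (h2 : 2 ≤ X.card) (hcard : X.card ≤ d + 4) :
    ∃ P : Finset (Finset (EuclideanSpace ℝ (Fin d))), P.card ≤ d + 1 ∧ (∀ A ∈ P, A ⊆ X) ∧
      (∀ x ∈ X, ∃ A ∈ P, x ∈ A) ∧
      ∀ A ∈ P, Metric.diam (A : Set (EuclideanSpace ℝ (Fin d)))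
        < Metric.diam (X : Set (EuclideanSpace ℝ (Fin d))) := by
  classical
  obtain ⟨D, hD⟩ : ∃ D : ℝ, D = Metric.diam (X : Set (EuclideanSpace ℝ (Fin d))) := ⟨_, rfl⟩
  rw [← hD]
  have hbdd : Bornology.IsBounded (X : Set (EuclideanSpace ℝ (Fin d))) :=
    X.finite_toSet.isBounded
  have hle : ∀ x ∈ X, ∀ y ∈ X, dist x y ≤ D := by
    intro x hx y hy
    rw [hD]
    exact Metric.dist_le_diam_of_mem hbdd (Finset.mem_coe.mpr hx) (Finset.mem_coe.mpr hy)
  have hDpos : 0 < D := by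
    obtain ⟨x, hx, y, hy, hxy⟩ := Finset.one_lt_card.mp (by omega : 1 < X.card)
    exact lt_of_lt_of_le (dist_pos.mpr hxy) (hle x hx y hy)
  have hNK : NK X (fun x y => dist x y < D) (d + 2) := by
    intro T hTX hT q hq q' hq' hqq
    by_contra hcon
    have hD' : ∀ x ∈ T, ∀ y ∈ T, x ≠ y → ¬((x = q ∧ y = q') ∨ (x = q' ∧ y = q)) →
        dist x y = D := by
      intro x hx y hy hxy hne
      by_contra hlt
      exact hcon ⟨x, hx, y, hy, hxy, lt_of_le_of_ne (hle x (hTX hx) y (hTX hy)) hlt, hne⟩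
    have hq'T : q' ∈ T.erase q := Finset.mem_erase.mpr ⟨Ne.symm hqq, hq'⟩
    have hC : ((T.erase q).erase q').card = d := by
      rw [Finset.card_erase_of_mem hq'T, Finset.card_erase_of_mem hq, hT]
      rfl
    have hmemC : ∀ z, z ∈ (T.erase q).erase q' ↔ z ≠ q' ∧ z ≠ q ∧ z ∈ T := by
      intro z
      rw [Finset.mem_erase, Finset.mem_erase]
    have key := two_simplex ((T.erase q).erase q') hC D hDpos
      (by
        intro x hx y hy hxy
        obtain ⟨hx1, hx2, hx3⟩ := (hmemC x).mp hx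
        obtain ⟨hy1, hy2, hy3⟩ := (hmemC y).mp hy
        exact hD' x hx3 y hy3 hxy
          (fun h => h.elim (fun h => hx2 h.1) (fun h => hx1 h.1)))
      q q'
      (by
        intro hmem
        exact ((hmemC q).mp hmem).2.1 rfl)
      (by
        intro hmem
        exact ((hmemC q').mp hmem).1 rfl)
      hqq
      (by
        intro x hx
        obtain ⟨hx1, hx2, hx3⟩ := (hmemC x).mp hx
        exact hD' x hx3 q hq hx2
          (fun h => h.elim (fun h => hx2 h.1) (fun h => hx1 h.1)))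
      (by
        intro x hx
        obtain ⟨hx1, hx2, hx3⟩ := (hmemC x).mp hx
        exact hD' x hx3 q' hq' hx1
          (fun h => h.elim (fun h => hx2 h.1) (fun h => hx1 h.1)))
    have h1 : dist q q' ≤ D := hle q (hTX hq) q' (hTX hq')
    have h2' : dist q q' ^ 2 ≤ D ^ 2 := by
      have h0 : 0 ≤ dist q q' := dist_nonneg
      nlinarith
    have hdn : (0 : ℝ) ≤ (d : ℝ) := Nat.cast_nonneg d
    have hD2 : 0 < D ^ 2 := by positivity
    nlinarith [mul_nonneg hdn (sub_nonneg.mpr h2'), mul_nonneg hdn hD2.le]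
  obtain ⟨P, hP1, hP2, hP3, hP4⟩ := cover_main X (fun x y => dist x y < D)
    (fun x y h => by rw [dist_comm]; exact h) (d + 2) hNK (by omega) (by omega)
  refine ⟨P, by omega, hP1, hP2, ?_⟩
  intro A hA
  rcases A.eq_empty_or_nonempty with rfl | hne
  · simpa using hDpos
  · obtain ⟨p, hp, hmax⟩ := Finset.exists_max_image (A ×ˢ A)
      (fun p : EuclideanSpace ℝ (Fin d) × EuclideanSpace ℝ (Fin d) => dist p.1 p.2)
      (hne.product hne)
    have h1 : Metric.diam (A : Set (EuclideanSpace ℝ (Fin d))) ≤ dist p.1 p.2 := by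
      apply Metric.diam_le_of_forall_dist_le dist_nonneg
      intro x hx y hy
      exact hmax (x, y) (Finset.mem_product.mpr ⟨Finset.mem_coe.mp hx, Finset.mem_coe.mp hy⟩)
    have h3 : dist p.1 p.2 < D := by
      rw [Finset.mem_product] at hp
      by_cases hpp : p.1 = p.2
      · rw [hpp, dist_self]; exact hDpos
      · exact hP3 A hA p.1 hp.1 p.2 hp.2 hpp
    exact lt_of_le_of_lt h1 h3

end Vale.Agent.Lib.P052.helper23
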