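import Mathlib

/-!
Two regular simplices glued along a common facet: if `C` is a set of `d` points of
`ℝ^d` pairwise at distance `D`, and `q ≠ q'` are two further points both at distance
`D` from every point of `C`, then `d * dist q q' ^ 2 = 2 (d + 1) D ^ 2`.
-/

namespace Vale.Agent.Lib.P052.helper23

open Finset

variable {d : ℕ}

/-- Weighted identity: for an affine dependence `f` of the points of `t`, the weighted sum
of squared distances to any point `z` does not depend on `z`. -/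
lemma weighted_dist_sq (t : Finset (EuclideanSpace ℝ (Fin d))) (f : EuclideanSpace ℝ (Fin d) → ℝ)
    (h1 : ∑ e ∈ t, f e • e = 0) (h0 : ∑ e ∈ t, f e = 0) (z : EuclideanSpace ℝ (Fin d)) :
    ∑ e ∈ t, f e * dist e z ^ 2 = ∑ e ∈ t, f e * ‖e‖ ^ 2 := by
  have key : ∀ e : EuclideanSpace ℝ (Fin d),
      f e * dist e z ^ 2 = f e * ‖e‖ ^ 2 - 2 * inner ℝ (f e • e) z + f e * ‖z‖ ^ 2 := by
    intro e
    rw [dist_eq_norm, norm_sub_sq_real, inner_smul_left]
    simp only [conj_trivial]
    ring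
  calc ∑ e ∈ t, f e * dist e z ^ 2
      = ∑ e ∈ t, (f e * ‖e‖ ^ 2 - 2 * inner ℝ (f e • e) z + f e * ‖z‖ ^ 2) :=
        Finset.sum_congr rfl (fun e _ => key e)
    _ = ∑ e ∈ t, f e * ‖e‖ ^ 2 - 2 * inner ℝ (∑ e ∈ t, f e • e) z
          + (∑ e ∈ t, f e) * ‖z‖ ^ 2 := by
        rw [Finset.sum_add_distrib, Finset.sum_sub_distrib, ← Finset.mul_sum, sum_inner,
          Finset.sum_mul]
    _ = ∑ e ∈ t, f e * ‖e‖ ^ 2 := by
        rw [h1, h0]; simp

lemma two_simplex (C : Finset (EuclideanSpace ℝ (Fin d))) (hC : C.card = d)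
    (D : ℝ) (hD : 0 < D)
    (hCC : ∀ x ∈ C, ∀ y ∈ C, x ≠ y → dist x y = D)
    (q q' : EuclideanSpace ℝ (Fin d)) (hq : q ∉ C) (hq' : q' ∉ C) (hqq : q ≠ q')
    (hqC : ∀ x ∈ C, dist x q = D) (hq'C : ∀ x ∈ C, dist x q' = D) :
    (d : ℝ) * dist q q' ^ 2 = 2 * (d + 1) * D ^ 2 := by
  classical
  set t : Finset (EuclideanSpace ℝ (Fin d)) := insert q (insert q' C) with ht
  have hq_t : q ∉ insert q' C := by
    simp only [Finset.mem_insert, not_or]
    exact ⟨hqq, hq⟩
  have hcard : t.card = d + 2 := by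
    rw [ht, Finset.card_insert_of_notMem hq_t, Finset.card_insert_of_notMem hq', hC]
  have hfin : Module.finrank ℝ (EuclideanSpace ℝ (Fin d)) + 1 < t.card := by
    rw [hcard, finrank_euclideanSpace, Fintype.card_fin]
    omega
  obtain ⟨f, h1, h0, x0, hx0, hfx0⟩ :=
    Module.exists_nontrivial_relation_sum_zero_of_finrank_succ_lt_card hfin
  obtain ⟨κ, hκ⟩ : ∃ κ : ℝ, κ = ∑ e ∈ t, f e * ‖e‖ ^ 2 := ⟨_, rfl⟩
  have hid : ∀ z : EuclideanSpace ℝ (Fin d), ∑ e ∈ t, f e * dist e z ^ 2 = κ := by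
    intro z
    rw [hκ]
    exact weighted_dist_sq t f h1 h0 z
  -- expand sums over `t`
  have hsplit : ∀ g : EuclideanSpace ℝ (Fin d) → ℝ,
      ∑ e ∈ t, g e = g q + (g q' + ∑ e ∈ C, g e) := by
    intro g
    rw [ht, Finset.sum_insert hq_t, Finset.sum_insert hq']
  obtain ⟨σ, hσ⟩ : ∃ σ : ℝ, σ = ∑ e ∈ C, f e := ⟨_, rfl⟩
  have hsum0 : f q + (f q' + σ) = 0 := by
    rw [hσ, ← hsplit f]; exact h0
  obtain ⟨x, hx⟩ : ∃ x : ℝ, x = dist q q' ^ 2 := ⟨_, rfl⟩
  have hxpos : 0 < x := by
    have : 0 < dist q q' := dist_pos.mpr hqq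
    rw [hx]
    positivity
  -- evaluate at `q`
  have e1 : f q' * x + σ * D ^ 2 = κ := by
    have h := hid q
    rw [hsplit] at h
    rw [dist_self, dist_comm q' q, ← hx] at h
    have hs : ∑ e ∈ C, f e * dist e q ^ 2 = σ * D ^ 2 := by
      rw [hσ, Finset.sum_mul]
      exact Finset.sum_congr rfl (fun e he => by rw [hqC e he])
    rw [hs] at h
    rw [← h]
    ring
  -- evaluate at `q'`
  have e2 : f q * x + σ * D ^ 2 = κ := by
    have h := hid q'
    rw [hsplit] at h
    rw [dist_self, ← hx] at h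
    have hs : ∑ e ∈ C, f e * dist e q' ^ 2 = σ * D ^ 2 := by
      rw [hσ, Finset.sum_mul]
      exact Finset.sum_congr rfl (fun e he => by rw [hq'C e he])
    rw [hs] at h
    rw [← h]
    ring
  -- evaluate at `c ∈ C`
  have e3 : ∀ c ∈ C, -(f c * D ^ 2) = κ := by
    intro c hc
    have h := hid c
    rw [hsplit] at h
    rw [dist_comm q c, dist_comm q' c, hqC c hc, hq'C c hc] at h
    have hs : ∑ e ∈ C, f e * dist e c ^ 2 = σ * D ^ 2 - f c * D ^ 2 := by
      have h' : ∀ e ∈ C, f e * dist e c ^ 2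
          = f e * D ^ 2 - (if e = c then f c * D ^ 2 else 0) := by
        intro e he
        by_cases hec : e = c
        · subst hec
          simp
        · rw [if_neg hec, hCC e he c hc hec]
          ring
      rw [Finset.sum_congr rfl h', Finset.sum_sub_distrib, Finset.sum_ite_eq' C c,
        if_pos hc, hσ, Finset.sum_mul]
    rw [hs] at h
    rw [← h]
    have := hsum0
    linear_combination (-(D ^ 2)) * this
  have hff : f q = f q' := by
    have : (f q - f q') * x = 0 := by linear_combination e2 - e1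
    rcases mul_eq_zero.mp this with h | h
    · linarith
    · exact absurd h hxpos.ne'
  -- sum of `e3` over `C`
  have e4 : -(σ * D ^ 2) = (d : ℝ) * κ := by
    have : ∑ c ∈ C, -(f c * D ^ 2) = ∑ _c ∈ C, κ :=
      Finset.sum_congr rfl (fun c hc => e3 c hc)
    rw [Finset.sum_const, hC, nsmul_eq_mul, Finset.sum_neg_distrib, ← Finset.sum_mul] at this
    rw [hσ]
    exact this
  obtain ⟨φ, hφ⟩ : ∃ φ : ℝ, φ = f q := ⟨_, rfl⟩
  rw [← hφ] at e2 hsum0
  have hσφ : σ = -2 * φ := by
    have := hsum0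
    rw [← hff, ← hφ] at this
    linarith
  have hκφ : κ = φ * (x - 2 * D ^ 2) := by
    rw [← e2, hσφ]; ring
  have main : φ * ((d : ℝ) * x - 2 * (d + 1) * D ^ 2) = 0 := by
    have := e4
    rw [hσφ, hκφ] at this
    linear_combination -this
  rcases mul_eq_zero.mp main with h | h
  · -- all coefficients vanish: contradiction
    exfalso
    have hκ0 : κ = 0 := by rw [hκφ, h]; ring
    have hD2 : D ^ 2 ≠ 0 := by positivity
    have hfc : ∀ c ∈ C, f c = 0 := by
      intro c hc
      have := e3 c hc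
      rw [hκ0] at this
      have h' : f c * D ^ 2 = 0 := by linarith
      rcases mul_eq_zero.mp h' with h'' | h''
      · exact h''
      · exact absurd h'' hD2
    rw [ht, Finset.mem_insert, Finset.mem_insert] at hx0
    rcases hx0 with rfl | rfl | hx0
    · exact hfx0 (by rw [← hφ]; exact h)
    · exact hfx0 (by rw [← hff, ← hφ]; exact h)
    · exact hfx0 (hfc x0 hx0)
  · rw [← hx]
    linarith

end Vale.Agent.Lib.P052.helper23
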